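import Crest.Agent.X212.Lw78.EnD
import Crest.Agent.X212.Mon62.NkI

/-!
# Row 212, EN18-WK (helper40): without spinor the gradient term is small
-/

set_option autoImplicit false
set_option linter.unusedSectionVars false
noncomputable section
open scoped Manifold ContDiff Topology InnerProductSpace Classical
open MeasureTheory Set Function Filter

namespace Crest.Agent.X212.Wk40
open An Nd18 Cyf70 Dgr80 Nka63 Lw78.En
open Mp86 (NK DB Dom Bumps Mc)
open Wrd81 (wd)

section gen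
variable {E : Type} [NormedAddCommGroup E] [NormedSpace ℝ E] [FiniteDimensional ℝ E]
  [MeasurableSpace E] [BorelSpace E]
  {HM : Type} [TopologicalSpace HM] {I : ModelWithCorners ℝ E HM}
  {M : Type} [TopologicalSpace M] [ChartedSpace HM M] [IsManifold I ∞ M]
  [MeasurableSpace M] {ι lam : Type} [Fintype ι] [Fintype lam] {r : ℕ} {F : Fr I M ι}

theorem wd_zero {V : Type} [NormedAddCommGroup V] [InnerProductSpace ℝ V] [CompleteSpace V]
    {A : ι → M → CL V V} (h : F.res A 0 = 0) : ∀ w : List (SL M V), wd (sl F A) 0 w = 0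
  | [] => rfl
  | .op T :: w => by
    change sl F A (.op T) (wd (sl F A) 0 w) = 0
    rw [wd_zero h w]; funext x; simp [sl]
  | .G :: w => by
    change sl F A .G (wd (sl F A) 0 w) = 0
    rw [wd_zero h w]; exact h

/-- a density which vanishes with its gradient -/
def Z (c : Cfg M ι lam r) (d : Den M ι lam r) : Prop := (∀ x, d.h c x = 0) ∧ ∀ f x, d.gA c f x = 0

theorem z_sw [I.Boundaryless] [T2Space M] [BorelSpace M] [SecondCountableTopology M]
    {c : Cfg M ι lam r} (hB : Bumps I F.e F.dv) (hW : Mc I c.W)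
    (h0 : ∀ x, c.Φ x = 0) (T : Pk M lam) (u v : SW M) (χ : M → ℝ) :
    Z c (dcut χ (Den.sw F T u v)) := by
  have hn : nP c = 0 := funext fun x => by simp [nP, h0]
  have hw : ∀ w, nw F c w = 0 := fun w => by rw [nw_eq, hn, wd_zero (Mp86.res_zero hB hW)]
  have k : ∀ w x, swA F c w (fun _ => 0) x = 0 := fun w x => by
    simpa only [zero_smul, swA] using Mon62.gc_smul hB 0 hW opL (nP c) (w.map (ltS F c)) 0 x
  exact ⟨fun x => by simp [dcut, Den.sw, hw], fun f x => by simp [dcut, Den.sw, hw, k]⟩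

theorem dom_sum {J : Type} (s : Finset J) {β : J → ℝ} {g : J → M → ℝ}
    (h : ∀ j, Dom F (β j) (g j)) : Dom F (∑ j ∈ s, β j) fun x => ∑ j ∈ s, g j x := by
  induction s using Finset.induction_on with
  | empty => simpa using Dom.zero (F := F) le_rfl
  | insert a s ha ih => simpa only [Finset.sum_insert ha] using (h a).add ih

theorem conv {J V : Type} [Fintype J] [NormedAddCommGroup V] [NormedSpace ℝ V] {a : J → ℝ}
    (h : ∑ j, |a j| ≤ 1) (v : J → V) : ‖∑ j, a j • v j‖ ^ 2 ≤ ∑ j, |a j| * ‖v j‖ ^ 2 := by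
  have k := Finset.sum_sq_le_sum_mul_sum_of_sq_le_mul Finset.univ (r := fun j => ‖a j • v j‖)
    (f := fun j => |a j|) (g := fun j => |a j| * ‖v j‖ ^ 2) (fun _ _ => abs_nonneg _)
    (fun _ _ => by positivity) fun j _ => le_of_eq (by rw [norm_smul, Real.norm_eq_abs]; ring)
  exact ((pow_le_pow_left₀ (norm_nonneg _) (norm_sum_le _ _) 2).trans k).trans
    (mul_le_of_le_one_left (Finset.sum_nonneg fun _ _ => by positivity) h)

end gen

variable {E3 : Type} [NormedAddCommGroup E3] [NormedSpace ℝ E3] [FiniteDimensional ℝ E3]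
  [MeasurableSpace E3] [BorelSpace E3]
  {H3 : Type} [TopologicalSpace H3] {I3 : ModelWithCorners ℝ E3 H3} [I3.Boundaryless]
  {Y : Type} [TopologicalSpace Y] [ChartedSpace H3 Y] [IsManifold I3 ∞ Y] [T2Space Y]
  [MeasurableSpace Y] [BorelSpace Y] [SecondCountableTopology Y] [CompactSpace Y]
  {κ : Type} [Fintype κ] {lam : Type} [Fintype lam] {D : YD I3 Y κ lam} {S : ℝ} {r : ℕ}

/-- the bounds of a connection-valued field -/
structure Bd (X : NK D S) (c : Cfg X.M (Option κ) lam r) (g : X.M → Fm (Option κ) c.m.A) (k : ℝ) :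
    Prop where
  dom : Dom X.G.F k fun x => ‖g x‖ ^ 2
  ct : Continuous g
  wk : ∀ a a', Sb X.K.p X.K.q a a' → Integrable (fun x => θc a a' (X.K.τ x) *
    ⟪xA X.G.F c X.K.τ x, g x⟫_ℝ) X.G.F.μ ∧
    |∫ x, θc a a' (X.K.τ x) * ⟪xA X.G.F c X.K.τ x, g x⟫_ℝ ∂X.G.F.μ| ≤ k

theorem Bd.sum {X : NK D S} {c : Cfg X.M (Option κ) lam r} {J : Type} [Fintype J]
    {g : J → X.M → Fm (Option κ) c.m.A} {k a : J → ℝ} {η : ℝ} (h : ∀ j, Bd X c (g j) (k j))
    (h1 : ∑ j, |a j| ≤ 1) (h2 : ∑ j, |a j| * k j ≤ η) : Bd X c (fun x => ∑ j, a j • g j x) η := by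
  refine ⟨(dom_sum _ fun j => (h j).dom.mul (abs_nonneg (a j))).mono h2 fun x => conv h1 _,
    continuous_finsetSum _ fun j _ => (h j).ct.fun_const_smul _, fun b b' T => ?_⟩
  simp only [inner_sum, real_inner_smul_right, Finset.mul_sum, mul_left_comm (θc b b' _)]
  have i := fun j => (((h j).wk b b' T).1.const_mul (a j))
  refine ⟨integrable_finsetSum _ fun j _ => i j, ?_⟩
  rw [integral_finsetSum _ fun j _ => i j]
  refine (Finset.abs_sum_le_sum_abs _ _).trans ((Finset.sum_le_sum fun j _ => ?_).trans h2)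
  rw [integral_const_mul, abs_mul]
  exact mul_le_mul_of_nonneg_left ((h j).wk b b' T).2 (abs_nonneg _)

variable (D) in
/-- uniform bounds of the gradient of one density -/
def Q (d : YDen Y) (k : ℝ) : Prop := 1 ≤ k ∧ ∀ δ > 0, δ ≤ 1 / 8 → ∀ (S : ℝ) (r : ℕ) (X : NK D S)
  (c : Cfg X.M (Option κ) lam r), Gd X.B X.G c → (∀ x, c.Φ x = 0) →
    Bd X c ((X.K.den d).gA c fun y => cv δ (X.K.cut 3) (X.K.τ y)) k

theorem exists_Q (h : LocStmt I3 Y κ lam) (hD : D.OK) {d : YDen Y} (hd : d.OK D.F) :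
    ∃ k, Q D d k := by
  cases d with
  | sw u v =>
    refine ⟨1, le_rfl, fun δ _ _ S r X c hc h0 => ?_⟩
    rw [show (X.K.den (.sw u v)).gA c _ = fun _ => 0 from
      funext ((z_sw X.hb (Mp86.mc_W hc.adm.conn) h0 _ _ _ _).2 _)]
    exact ⟨by simpa using Dom.zero (F := X.G.F) zero_le_one, continuous_const,
      fun _ _ _ => by simp⟩
  | cy d w d' w' =>
    obtain ⟨k, h⟩ := h D hD d w d' w' hd
    refine ⟨max (max 1 k) (cW (1 / 8) k 1 * vY D + 80 * (2 * cA * (|k| * vY D))),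
      le_max_of_le_left (le_max_left _ _), fun δ δ0 δ1 S r X c hc h0 => ?_⟩
    obtain ⟨b, t⟩ := h S r X
    have t := t c hc
    have c0 : Continuous (X.K.cut 3) := contDiff_ct.continuous
    have c1 : ∀ s, |X.K.cut 3 s| ≤ 1 := fun _ => (abs_of_nonneg ct_mem.1).trans_le ct_mem.2
    have cb := cb_cv (G := X.G) (K := X.K) δ0 c0 c1
    have P := pn2 hD X
    have k0 := zero_le_one.trans b.one
    refine ⟨(b.A c hc.adm _ 1 fun x => (cv_bounds δ0 c0.aestronglyMeasurable c1).2.1 _).mono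
      (le_max_of_le_left (by simp)) fun _ => le_rfl, (t.sA _ cb).continuous, fun a a' T =>
      ⟨((T.tf (G := X.G)).ts.mul (sm_inner (P.sm_xA hc.adm) (t.sA _ cb))).int X.G.F,
        le_max_of_le_right ?_⟩⟩
    have z : ∀ x ∉ X.K.dp 1, (X.K.den (.cy d w d' w')).h c x = 0 := fun x hx =>
      mul_eq_zero_of_left (X.K.χ_zero hx) _
    have e1 := T.work1 P.dv δ0 t z c0 c1 k0
    have W := wi X.K δ0 t.sm.continuous.aestronglyMeasurable z fun x _ => t.le x
    have e2 := T.ibp (W.hasDerivAt_wn δ0) (W.contDiff_wnd δ0 1).continuous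
      (norm_wn_le X.K δ0 z fun x _ => t.le x)
    have e3 : ∀ x, xP X.G.F c X.K.τ x = 0 := fun x => by
      rw [xP, show c.Φ = fun _ => 0 from funext h0]
      simp [nt, Wz78.nab, Mp86.dv_const]
    have e4 : cW δ k 1 * vY D ≤ cW (1 / 8) k 1 * vY D := by
      have := vY_nonneg D
      unfold cW
      gcongr
    simp only [e3, inner_zero_left, add_zero, mul_assoc (θc a a' _), Den.rd] at e1 e2
    rw [abs_le] at e1 e2 ⊢
    exact ⟨by linarith [e1.1, e2.1], by linarith [e1.2, e2.2]⟩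

/-- without spinor the gradient is a combination of the gradients of the densities -/
theorem gA_eq {N : ND Y lam} (hN : N.OK D) {p : N.J0 → ℝ} (hp : ∀ x : N.J0 → ℝ,
    (∀ j u v, N.d0 j = .sw u v → x j = 0) → N.φ (x, 0) = ∑ j, p j * x j) (ν : ℝ) (X : NK D S)
    {c : Cfg X.M (Option κ) lam r} (hc : c.Adm X.B X.G) (h0 : ∀ x, c.Φ x = 0) (x : X.M) :
    ((N.smul ν).dg X.K).gA X.G.F c x = ∑ j, (ν * p j) •
      (X.K.den (N.d0 j)).gA c (fun y => cv N.δ (X.K.cut 3) (X.K.τ y)) x := by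
  have z := z_sw X.hb (Mp86.mc_W hc.conn) h0
  have z0 : ∀ j u v, N.d0 j = .sw u v → Z c (X.K.den (N.d0 j)) := fun j u v e => e ▸ z _ _ _ _
  have i0 : ∀ t j, Z c ((N.dg X.K).d j) → (N.dg X.K).Iv X.G.F c t j = 0 := fun t j k => by
    simp [DG.Iv, wn, k.1]
  refine (Fintype.sum_sum_type (α₁ := N.J0) (α₂ := N.J2 ⊕ N.J2) _).trans ((add_eq_left.2
    (Finset.sum_eq_zero fun j _ => by cases j <;> exact (z _ _ _ _).2 _ _)).trans
      (Finset.sum_congr rfl fun j _ => ?_))
  by_cases e : ∃ u v, N.d0 j = .sw u v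
  · obtain ⟨u, v, e⟩ := e
    rw [(z0 j u v e).2, smul_zero]
    exact (z0 j u v e).2 _ _
  refine Eq.trans (congrArg (((N.dg X.K).d (.inl j)).gA c · x) (funext fun y => ?_))
    ((Mon62.dh_dg X.K X.hb hc.conn (.inl j)).A (ν * p j) _ x)
  refine (Mon62.β_smul X.K hN.sm ν (.inl j) _).trans ?_
  rw [mul_assoc]
  refine congrArg (ν * ·) (Eq.trans (integral_congr_ae (.of_forall fun t => ?_))
    (integral_const_mul _ _))
  have k : ∀ s : ℝ, (N.dg (r := r) X.K).φ ((N.dg X.K).Iv X.G.F c t + s • Pi.single (.inl j) 1) =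
      ∑ i, p i * (N.dg X.K).Iv X.G.F c t (.inl i) + p j * s := fun s => by
    have e1 : N.cx ((N.dg X.K).Iv X.G.F c t + s • Pi.single (.inl j) 1) =
        (fun i => (N.dg X.K).Iv X.G.F c t (.inl i) + s * Pi.single (M := fun _ => ℝ) j 1 i, 0) :=
      Prod.ext (funext fun i => by simp [ND.cx, Pi.single_apply]) (funext fun i => by
        simp [ND.cx, Complex.ext_iff, i0 t (.inr (.inl i)) (z _ _ _ _),
          i0 t (.inr (.inr i)) (z _ _ _ _)])
    refine (congrArg N.φ e1).trans ((hp _ fun i u v a => ?_).trans ?_)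
    · rw [i0 t (.inl i) (z0 i u v a), Pi.single_eq_of_ne (fun k : i = j => e ⟨u, v, k ▸ a⟩), mul_zero,
        add_zero]
    · simp [mul_add, Finset.sum_add_distrib, Pi.single_apply]
  have d : fderiv ℝ (N.dg (r := r) X.K).φ ((N.dg X.K).Iv X.G.F c t) (Pi.single (.inl j) 1) = p j := by
    exact ((hN.sm.comp Mp86.cd_cx).differentiable (by simp) _).lineDeriv_eq_fderiv.symm.trans
      ((congrArg (deriv · 0) (funext k)).trans (by simp))
  exact (congrArg (fun z => X.K.cut 3 t * z * b N.δ (X.K.τ y - t)) d).trans (by ring)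

/-- **EN18-WK** -/
theorem wk (h : LocStmt I3 Y κ lam) : WkStmt I3 Y κ lam := fun D hD η η0 => by
  have m : 0 < min η 1 := lt_min η0 one_pos
  refine ⟨fun d => (if h : ∃ k, Q D d k then h.choose else 0) / min η 1,
    fun N hN ⟨p, hp, hR⟩ ν hν S r X c hc h0 => ?_⟩
  have q := fun j => exists_Q h hD (hN.d0 j)
  simp only [dif_pos (q _), ← mul_div_assoc, ← Finset.sum_div, div_le_one m] at hR
  have h2 : ∑ j, |ν * p j| * (q j).choose ≤ min η 1 := (Finset.sum_le_sum fun j _ =>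
    mul_le_mul_of_nonneg_right ((abs_mul _ _).trans_le (mul_le_of_le_one_left (abs_nonneg _) hν))
      (zero_le_one.trans (q j).choose_spec.1)).trans hR
  have k := Bd.sum (fun j => (q j).choose_spec.2 _ hN.δ0 hN.δ1 S r X c hc h0)
    ((Finset.sum_le_sum fun j _ => le_mul_of_one_le_right (abs_nonneg _)
      (q j).choose_spec.1).trans (h2.trans (min_le_right _ _))) (h2.trans (min_le_left _ _))
  rw [← funext (gA_eq hN hp ν X hc.adm h0)] at k
  exact ⟨k.dom, k.ct, k.wk⟩

end Crest.Agent.X212.Wk40
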